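import Vale.Agent.P097F.R.Defs
import Vale.Agent.P097F.NC.All

/-!
# P097F.R: the block from the rows
-/

set_option linter.all false

noncomputable section

namespace Vale.Agent.P097F.R

open Filter Topology Set Metric
open Vale.Agent.P097F.NC

/-- the anchor on a vertical -/
theorem asm_anc {g Y : ℂ → ℂ} {W p T γ M ξ : ℝ} {K : ℕ} (L : Lf g W p Y) (P : AP g γ M)
    (g0 : 0 ≤ γ) (g1 : γ ≤ 1 / 4) (M1 : 1 ≤ M) (w2 : 16 * M ^ 2 ≤ W) (p0 : 0 ≤ p) (pT : p ≤ T)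
    (TW : T ≤ W ^ K) (An : Anc Y T) (x1 : |ξ| ≤ W ^ K) :
    W ≤ W ^ (K + 2) ∧ 256 * W ^ K ≤ W ^ (K + 2) ∧
      ‖Y (vt ξ (W ^ (K + 2))) - vt ξ (W ^ (K + 2))‖ ≤ W ^ (K + 2) / 2 ∧
      ‖dl g Y W (vt ξ (W ^ (K + 2)))‖ ≤ 1 := by
  have w3 : 16 ≤ W := by nlinarith
  set S : ℝ := W ^ (K + 2) with hS
  have k1 : 1 ≤ W ^ K := one_le_pow₀ (by linarith)
  have e : S = W ^ K * W ^ 2 := pow_add W K 2
  have w4 : 256 ≤ W ^ 2 := by nlinarith
  have s1 : 256 * W ^ K ≤ S := by rw [e]; nlinarith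
  have s2 : W ^ 2 ≤ S := by rw [e]; nlinarith
  have an : ‖Y (vt ξ S) - vt ξ S‖ ≤ T / 8 :=
    An _ (by simp; linarith) (by simp; linarith)
  have n1 : ‖vt ξ S‖ ≤ W ^ K + S := by
    refine (Complex.norm_le_abs_re_add_abs_im _).trans ?_
    simp only [vt_re, vt_im, abs_neg]
    rw [abs_of_nonneg (by linarith : 0 ≤ S)]
    linarith
  have n2 : ‖Y (vt ξ S)‖ ≤ 2 * S := by
    have := norm_add_le (Y (vt ξ S) - vt ξ S) (vt ξ S)
    rw [sub_add_cancel] at this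
    linarith
  have n3 : S / 2 ≤ -(Y (vt ξ S)).im := by
    have h1 := abs_le.1 ((Complex.abs_im_le_norm _).trans an)
    simp only [Complex.sub_im, vt_im] at h1
    linarith
  have z1 := Wrap.sz P g0 g1 M1 w2 s2 n3 n2
  have z2 := Wrap.der (ξ := ξ) L An (S := S) (by linarith) pT (by linarith) (by linarith)
  refine ⟨by nlinarith, s1, by linarith, ?_⟩
  rw [dl, norm_div, norm_mul, norm_mul, Complex.norm_real, Real.norm_of_nonneg (by linarith),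
    Complex.norm_two]
  have := mul_le_mul z1 z2 (norm_nonneg _) zero_le_one
  linarith

theorem nosh_of (SM : S_SM) (EX : S_EXP) (LF : S_LEAF) (TR : S_TRL) : Spec_NOSH := by
  intro K a c a0 c0
  obtain ⟨ω, ω0, -, hS⟩ := SM
  obtain ⟨n, D, n1, D1, hL⟩ := LF (K + 2) (by omega)
  obtain ⟨γ₁, γ10, hS⟩ := hS n
  obtain ⟨γ₂, γ20, hT⟩ := TR a c ω n a0 c0 ω0 n1
  obtain ⟨γ₃, γ30, hN⟩ := nc2 K a c a0 c0
  refine ⟨min (min γ₁ γ₂) (min γ₃ (1 / 4)), by positivity, fun γ M g0 g1 M1 => ?_⟩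
  have k1 : γ ≤ γ₁ := g1.trans ((min_le_left _ _).trans (min_le_left _ _))
  have k2 : γ ≤ γ₂ := g1.trans ((min_le_left _ _).trans (min_le_right _ _))
  have k3 : γ ≤ γ₃ := g1.trans ((min_le_right _ _).trans (min_le_left _ _))
  have k4 : γ ≤ 1 / 4 := g1.trans ((min_le_right _ _).trans (min_le_right _ _))
  obtain ⟨r₁, hL⟩ := hL M M1
  obtain ⟨r₂, hS⟩ := hS M D M1 D1
  obtain ⟨r₃, hT⟩ := hT M D M1 D1
  obtain ⟨W₁, hN⟩ := hN γ M g0 k3 M1
  refine ⟨max (max W₁ (16 * M ^ 2)) ((|r₁| + |r₂| + |r₃|) ^ 4), fun W hW g Y p T L P Ac p0 pT TW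
    An x x1 x2 x3 y κ hy κ1 κ2 q τ τ0 hq => ?_⟩
  have w1 : W₁ ≤ W := ((le_max_left _ _).trans (le_max_left _ _)).trans hW
  have w2 : 16 * M ^ 2 ≤ W := ((le_max_right _ _).trans (le_max_left _ _)).trans hW
  have w3 : (|r₁| + |r₂| + |r₃|) ^ 4 ≤ W := (le_max_right _ _).trans hW
  have hN' := hN W w1 g Y p T L P Ac p0 pT TW An
  obtain ⟨a1, a2, a3, a4⟩ := asm_anc L P g0 k4 M1 w2 p0 pT TW An x1
  have kW : 0 ≤ W ^ K := (abs_nonneg _).trans x1
  obtain ⟨r, r0, rfl⟩ := core_rt (x := W) (le_trans (by positivity) w3)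
  have hr : |r₁| + |r₂| + |r₃| ≤ r := le_of_pow_le_pow_left₀ (n := 4) (by norm_num) r0 w3
  have b1 := le_abs_self r₁
  have b2 := le_abs_self r₂
  have b3 := le_abs_self r₃
  have c1 := abs_nonneg r₁
  have c2 := abs_nonneg r₂
  have c3 := abs_nonneg r₃
  obtain ⟨θ, hθ⟩ := P097.H202.prim_convex (isOpen_lt Complex.continuous_im continuous_const)
    (convex_halfSpace_im_lt 0) L.dg
  have e2 : vt x.re (p + (-x.im - p)) = x := by apply Complex.ext <;> simp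
  obtain ⟨s, s1, s2, s3⟩ := hL r (by linarith) g θ Y γ p ((r ^ 4) ^ (K + 2)) x.re (-x.im - p) hθ L P
    g0 (by linarith) p0 a1 le_rfl (by linarith) a3 a4
    (fun t t0 _ => hN' _ (by simpa using x1) (by rw [vt_im]; linarith)) (by linarith)
    (by linarith)
  rw [e2] at s2 s3
  have d1 : 1 / 40 ≤ -y.im := by
    have h1 := hN' x x1 x3
    have h2 := (le_abs_self _).trans ((Complex.abs_im_le_norm _).trans hy)
    rw [Complex.sub_im] at h2
    linarith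
  have d2 := hS s (by linarith) g θ γ y (Y x) hθ P g0 k1 d1 hy s2 s3
  have := hT s (by linarith) g θ γ τ (Y x) q hθ P Ac g0 k2 τ0 hq.cont (by rwa [hq.zero])
    (by rwa [hq.zero]) s2 s3 (by rwa [hq.zero]) (EX g _ κ y q τ κ1 κ2 hq)
  linarith

end Vale.Agent.P097F.R
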