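import Vale.Agent.P097F.R.Defs
import Vale.Agent.P097F.NC.All

/-!
# P097F.R: the image of a vertical
-/

noncomputable section

namespace Vale.Agent.P097F.R

open Filter Topology Set Metric
open Vale.Agent.P097F.NC

/-- the point is near -/
theorem leaf_near (EXIT : S_EXIT) {θ : ℂ → ℂ} {Γ : ℝ → ℂ} {te T₁ r V ε t₀ : ℝ}
    (hr : 4 ≤ r) (hV : 0 ≤ V) (hε : 0 ≤ ε) (hε' : ε ≤ 1 / 2) (h0 : 0 < te)
    (hle : te ≤ T₁) (hc : ContinuousOn Γ (Icc te T₁)) (he : -(Γ te).im ≤ 2 * r)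
    (h1 : ∀ t ∈ Icc te T₁, (Γ t).im ≤ -1 / 32) (h2 : ∀ t ∈ Icc te T₁, (Γ t).im ≤ -t)
    (h4 : ∀ t ∈ Icc te T₁, ‖θ (Γ t) - θ (Γ te)‖ * r ^ 4 ≤ V * (3 * r ^ 2) * t ^ (1 - ε))
    (h6 : (Γ T₁).im ≤ -r ^ 4 / 2) (ht : 0 ≤ t₀) (ht' : t₀ ≤ r) :
    ∃ β, Pth θ (Γ te) t₀ (9 * 1 * V / r) te β Γ := by
  have hq : 6 * r ≤ r ^ 4 := by
    have a : 4 ^ 3 ≤ r ^ 3 := pow_le_pow_left₀ (by norm_num) hr 3
    nlinarith
  have him : ∀ t, -(Γ t).im - 2 * r ≤ ‖Γ t - Γ te‖ := by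
    intro t
    have a := Complex.abs_im_le_norm (Γ t - Γ te)
    have b := neg_abs_le (Γ t - Γ te).im
    rw [Complex.sub_im] at a b
    linarith
  refine core_path EXIT hle hc h1 ht (by linarith [him T₁]) fun t ht2 h => ?_
  have t0 : 0 < t := h0.trans_le ht2.1
  have a1 : t ≤ 3 * r := by linarith [him t, h2 t ht2]
  have a2 : t ^ (1 - ε) ≤ 3 * r := by
    rcases le_total t 1 with h' | h'
    · have := Real.rpow_le_one t0.le h' (by linarith : 0 ≤ 1 - ε)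
      linarith
    · have := Real.rpow_le_rpow_of_exponent_le h' (by linarith : 1 - ε ≤ 1)
      rw [Real.rpow_one] at this
      linarith
  have a3 := (h4 t ht2).trans (mul_le_mul_of_nonneg_left a2 (by positivity))
  have r0 : 0 < r := by linarith
  rw [le_div_iff₀ r0]
  have a4 : 0 < r ^ 3 := by positivity
  refine le_of_mul_le_mul_right ?_ a4
  calc ‖θ (Γ t) - θ (Γ te)‖ * r * r ^ 3 = ‖θ (Γ t) - θ (Γ te)‖ * r ^ 4 := by ring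
    _ ≤ V * (3 * r ^ 2) * (3 * r) := a3
    _ = 9 * 1 * V * r ^ 3 := by ring

/-- the exit point is far -/
theorem leaf_far (EXIT : S_EXIT) {θ : ℂ → ℂ} {Γ : ℝ → ℂ} {te T₁ r s B V C ε t₀ : ℝ}
    (hC : 1 ≤ C) (hrC : 4 * C ≤ r) (hrs : r ≤ s) (hB : 1 ≤ B) (hBs : 8 * B ≤ s) (hV : 0 ≤ V)
    (hε' : ε ≤ 1 / 2) (h0 : 0 < te)
    (hle : te ≤ T₁) (hc : ContinuousOn Γ (Icc te T₁)) (hs : s ^ 4 = 1 + ‖Γ te‖)
    (h1 : ∀ t ∈ Icc te T₁, (Γ t).im ≤ -1 / 32)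
    (h3 : ∀ t ∈ Icc te T₁, ‖Γ t - Γ T₁‖ * t ≤ 3 * B ^ 2)
    (h4 : ∀ t ∈ Icc te T₁, ‖θ (Γ t) - θ (Γ te)‖ * r ^ 4 ≤ V * (3 * r ^ 2) * t ^ (1 - ε))
    (h5 : ‖Γ T₁‖ ≤ 3 * B) (ht : 0 ≤ t₀) (ht' : t₀ ≤ C * s) :
    ∃ β, Pth θ (Γ te) t₀ (9 * C * V / s) te β Γ := by
  have hr : 4 ≤ r := by linarith
  have hq := core_q hC (hrC.trans hrs)
  have s1 : 1 ≤ s := by linarith
  have s0 : 0 < s := by linarith
  have s4 : s ≤ s ^ 4 := le_self_pow₀ s1 (by norm_num)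
  have a0 : s ^ 4 / 2 ≤ ‖Γ T₁ - Γ te‖ := by
    have := norm_sub_norm_le (Γ te) (Γ T₁)
    rw [norm_sub_rev] at this
    linarith
  refine core_path EXIT hle hc h1 ht (by linarith) fun t ht2 h => ?_
  have t0 : 0 < t := h0.trans_le ht2.1
  have a1 : s ^ 4 / 4 ≤ ‖Γ t - Γ T₁‖ := by
    have := norm_sub_le_norm_sub_add_norm_sub (Γ T₁) (Γ t) (Γ te)
    rw [norm_sub_rev (Γ T₁) (Γ t)] at this
    linarith
  have a2 : s ^ 4 / 4 * t ≤ 3 * B ^ 2 := (mul_le_mul_of_nonneg_right a1 t0.le).trans (h3 t ht2)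
  have a3 : (8 * B) ^ 2 ≤ s ^ 2 := pow_le_pow_left₀ (by linarith) hBs 2
  have a4 : t * s ^ 2 ≤ 1 := by
    have b : 0 < s ^ 2 := by positivity
    refine le_of_mul_le_mul_right ?_ b
    have b2 : t * s ^ 2 * s ^ 2 = 4 * (s ^ 4 / 4 * t) := by ring
    rw [b2]
    nlinarith
  have a5 : t ≤ 1 := by
    have b : 1 ≤ s ^ 2 := one_le_pow₀ s1
    nlinarith
  have a6 : t ^ (1 - ε) ≤ 1 / s := by
    have b1 := Real.rpow_le_rpow_of_exponent_ge t0 a5 (by linarith : 1 / 2 ≤ 1 - ε)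
    refine b1.trans ?_
    rw [← Real.sqrt_eq_rpow]
    refine Real.sqrt_le_iff.2 ⟨by positivity, ?_⟩
    rw [div_pow, one_pow, le_div_iff₀ (by positivity)]
    exact a4
  have a7 := (h4 t ht2).trans (mul_le_mul_of_nonneg_left a6 (by positivity))
  have r0 : 0 < r := by linarith
  have a8 : 0 < r ^ 4 := by positivity
  refine le_of_mul_le_mul_right (a7.trans ?_) a8
  have a9 : r ^ 2 ≤ r ^ 4 := pow_le_pow_right₀ (by linarith) (by norm_num)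
  have a10 : 3 * r ^ 2 ≤ 9 * C * r ^ 4 := by nlinarith
  calc V * (3 * r ^ 2) * (1 / s) = V / s * (3 * r ^ 2) := by ring
    _ ≤ V / s * (9 * C * r ^ 4) := mul_le_mul_of_nonneg_left a10 (by positivity)
    _ = 9 * C * V / s * r ^ 4 := by ring

theorem lp_of {θ : ℂ → ℂ} {Γ : ℝ → ℂ} {te s D : ℝ}
    (h : ∀ t : ℝ, 1 / 40 ≤ t → t ≤ s → -(Γ te).im ≤ 2 * t →
      ∃ β, Pth θ (Γ te) (t / 2) (D / s) te β Γ) : LP θ (Γ te) s D := by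
  intro t h1 h2 h3
  obtain ⟨β, p⟩ := h t h1 h2 h3
  exact ⟨te, β, Γ, p.le, p.cont, p.st, p.en, p.ins⟩

/-- both cases -/
theorem leaf_geo (EXIT : S_EXIT) {θ : ℂ → ℂ} {Γ : ℝ → ℂ} {te T₁ r B V ε : ℝ} {n : ℕ}
    (hn : 4 ≤ n) (hr : 4 ≤ r) (hB : 1 ≤ B) (hBn : (B * r ^ 3) ^ 4 ≤ r ^ n)
    (hV : 0 ≤ V) (hε : 0 ≤ ε) (hε' : ε ≤ 1 / 2) (h0 : 0 < te)
    (hle : te ≤ T₁) (hc : ContinuousOn Γ (Icc te T₁))
    (h1 : ∀ t ∈ Icc te T₁, (Γ t).im ≤ -1 / 32) (h2 : ∀ t ∈ Icc te T₁, (Γ t).im ≤ -t)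
    (h3 : ∀ t ∈ Icc te T₁, ‖Γ t - Γ T₁‖ * t ≤ 3 * B ^ 2)
    (h4 : ∀ t ∈ Icc te T₁, ‖θ (Γ t) - θ (Γ te)‖ * r ^ 4 ≤ V * (3 * r ^ 2) * t ^ (1 - ε))
    (h5 : ‖Γ T₁‖ ≤ 3 * B) (h6 : (Γ T₁).im ≤ -r ^ 4 / 2) :
    ∃ s, r ≤ s ∧ 1 + ‖Γ te‖ ≤ s ^ n ∧ LP θ (Γ te) s (9 * 1 * V) := by
  rcases le_total (1 + ‖Γ te‖) (r ^ n) with h | h
  · exact ⟨r, le_rfl, h, lp_of fun t t1 t2 t3 =>
      leaf_near EXIT hr hV hε hε' h0 hle hc (by linarith) h1 h2 h4 h6 (by linarith) (by linarith)⟩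
  · obtain ⟨s, s0, hs⟩ := core_rt (x := 1 + ‖Γ te‖) (by positivity)
    have a1 : B * r ^ 3 ≤ s := by
      refine le_of_pow_le_pow_left₀ (n := 4) (by norm_num) s0 ?_
      rw [hs]
      exact hBn.trans h
    have a2 : r ≤ r ^ 3 := le_self_pow₀ (by linarith) (by norm_num)
    have a3 : 2 ^ 3 ≤ r ^ 3 := pow_le_pow_left₀ (by norm_num) (by linarith) 3
    have a4 : r ≤ s := by nlinarith
    have a5 : 8 * B ≤ s := by nlinarith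
    refine ⟨s, a4, ?_, lp_of fun t t1 t2 t3 =>
      leaf_far EXIT le_rfl (by linarith) a4 hB a5 hV hε' h0 hle hc hs h1 h3 h4 h5 (by linarith)
        (by linarith)⟩
    rw [← hs]
    exact pow_le_pow_right₀ (by linarith) hn

theorem leaf : S_LEAF := by
  intro K hK
  obtain ⟨n, hn⟩ : ∃ n : ℕ, n = 16 * K + 12 := ⟨_, rfl⟩
  have n4 : 4 ≤ n := by omega
  obtain ⟨ε, hε⟩ : ∃ ε : ℝ, ε = ((4 * K : ℕ) : ℝ)⁻¹ := ⟨_, rfl⟩
  have k4 : (2 : ℝ) ≤ ((4 * K : ℕ) : ℝ) := by exact_mod_cast (by omega : 2 ≤ 4 * K)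
  have e0 : 0 < ε := by
    rw [hε]
    positivity
  have e1 : ε ≤ 1 / 2 := by
    rw [hε, one_div]
    exact inv_anti₀ (by norm_num) k4
  obtain ⟨V, hV⟩ : ∃ V : ℝ, V = 16000 / ε ^ 2 := ⟨_, rfl⟩
  have V1 : 1 ≤ V := by
    rw [hV, le_div_iff₀ (by positivity)]
    nlinarith
  refine ⟨n, 9 * 1 * V, by omega, by linarith, fun M hM => ⟨4 + M,
    fun r hr g θ Y γ p T ξ te hθ hf hAP hγ hγ' hp hWT hTB hξ han hd h1 te0 hte => ?_⟩⟩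
  have r1 : 1 ≤ r := by linarith
  have r4 : r ≤ r ^ 4 := le_self_pow₀ r1 (by norm_num)
  have hWB : r ^ 4 ≤ (r ^ 4) ^ K := le_self_pow₀ (by linarith) (by omega)
  have hE := core_eps hK (by linarith : 0 ≤ r)
  have hBn : ((r ^ 4) ^ K * r ^ 3) ^ 4 ≤ r ^ n := le_of_eq (by rw [hn]; ring)
  rw [← hε] at hE
  generalize (r ^ 4) ^ K = B at *
  have eT : p + (T - p) = T := by ring
  have h6 : (Y (vt ξ T)).im ≤ -r ^ 4 / 2 := by
    have b1 := (le_abs_self _).trans ((Complex.abs_im_le_norm _).trans han)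
    rw [Complex.sub_im, vt_im] at b1
    linarith
  have h5 : ‖Y (vt ξ T)‖ ≤ 3 * B := by
    have b1 := norm_sub_norm_le (Y (vt ξ T)) (vt ξ T)
    have b2 := Complex.norm_le_abs_re_add_abs_im (vt ξ T)
    rw [vt_re, vt_im, abs_neg, abs_of_nonneg (by linarith : 0 ≤ T)] at b2
    linarith
  have h1' : ∀ t ∈ Icc te (T - p), (Y (vt ξ (p + t))).im ≤ -1 / 32 := fun t ht =>
    h1 t (te0.trans_le ht.1) ht.2
  have hS := fun t (ht : t ∈ Icc te (T - p)) => size sim g Y (r ^ 4) p γ M B ξ T t hf hAP hγ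
    hγ' hM (by linarith) (by linarith) hWB hp hTB hξ han (te0.trans_le ht.1) ht.2
  have hD := dint der (dl g Y (r ^ 4)) p B ξ (T - p) te (core_dl hf) (by linarith) (by linarith)
    te0 (by rwa [eT]) fun t ht => (hS t ht).2 (h1' t ht)
  have hVr := var g θ Y (r ^ 4) p B ξ (T - p) te ε hf hθ (by linarith) (by linarith) (by linarith)
    te0 e0 e1 hD
  rw [← hV] at hVr
  exact leaf_geo exit (θ := θ) (Γ := fun t => Y (vt ξ (p + t))) (te := te)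
    (T₁ := T - p) (r := r) (B := B) (V := V) (ε := ε) n4 (by linarith) (by linarith)
    hBn (by linarith) e0.le e1 te0 hte (core_cont hf te0) h1'
    (fun t ht => by
      have b := hf.pos (vt ξ (p + t)) (by rw [vt_im]; linarith [ht.1])
      rw [vt_im] at b
      linarith)
    (fun t ht => by
      rw [eT]
      exact (hS t ht).1)
    (fun t ht => (hVr t ht).trans (mul_le_mul_of_nonneg_right
      (mul_le_mul_of_nonneg_left hE (by linarith))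
      (Real.rpow_nonneg (by linarith [ht.1]) _)))
    (by rwa [eT]) (by rwa [eT])

end Vale.Agent.P097F.R
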