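import Vale.Agent.P097F.R.Defs
import Vale.Agent.P097F.NC.Low

/-!
# P097F.R: the lemma of Hall for the angle; no calm path near the top
-/

set_option linter.all false

noncomputable section

namespace Vale.Agent.P097F.R

open Filter Topology Set Metric
open Vale.Agent.P097F.NC

theorem ht (H : S_HG) : S_HT := by
  intro g θ q z₀ a t m G α β Γ hθ a0 hq ht t1 hx m0 m1 G1 hG hP
  have t0 : 0 < t := by linarith
  obtain ⟨R, hR⟩ : ∃ R, R = 1000 * (a + 2) ^ 2 * t ^ 2 := ⟨_, rfl⟩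
  have e : 2000 * (a + 2) ^ 2 * t ^ 2 * G = G * (2 * R) := by rw [hR]; ring
  have R1 : 4000 * t ^ 2 ≤ R := by
    rw [hR]
    nlinarith [mul_nonneg (mul_nonneg a0 (show 0 ≤ a + 4 by linarith)) (sq_nonneg t)]
  have R2 : 2 * t ≤ R := by nlinarith
  have R3 : 1 ≤ 2 * R := by nlinarith
  have hd : ∀ z : ℂ, z.im < 0 → HasDerivAt (fun z => θ z - θ (Γ α)) (g z) z := fun z hz =>
    (hθ z hz).sub_const _
  have cv : Convex ℝ ({z : ℂ | z.im ≤ -1 / 128} ∩ closedBall q R) :=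
    (convex_halfSpace_im_le _).inter (convex_closedBall q R)
  obtain ⟨i1, i2, -⟩ := hP.ins α ⟨le_rfl, hP.le⟩
  have key := H (fun z => θ z - θ (Γ α)) q z₀ a t m (G * (2 * R)) α β Γ
    (fun z hz => (hd z hz).differentiableAt.differentiableWithinAt) a0 hq ht t1 hx m0 m1
    (one_le_mul_of_one_le_of_one_le G1 R3) (fun z h1 h2 => by
      rw [← hR] at h2
      have := cv.norm_image_sub_le_of_norm_hasDerivWithin_le (f := θ) (f' := g) (C := G)
        (fun w hw => (hθ w (by linarith [show w.im ≤ -1 / 128 from hw.1])).hasDerivWithinAt)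
        (fun w hw => hG w hw.1 (hR ▸ mem_closedBall_iff_norm.1 hw.2))
        (x := Γ α) ⟨show (Γ α).im ≤ _ by linarith, mem_closedBall_iff_norm.2 (i2.trans R2)⟩
        (y := z) ⟨h1, mem_closedBall_iff_norm.2 h2⟩
      refine this.trans (mul_le_mul_of_nonneg_left ?_ (by linarith))
      have k := norm_sub_le (z - q) (Γ α - q)
      rw [sub_sub_sub_cancel_right] at k
      linarith) hP
  have neg : ∀ z ∈ closedBall z₀ (t / 8), z.im < 0 := fun z hz => by
    have h1 := (Complex.abs_im_le_norm (z - z₀)).trans (mem_closedBall_iff_norm.1 hz)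
    rw [Complex.sub_im, abs_le] at h1
    linarith [h1.2]
  have dz : DiffContOnCl ℂ (fun z => θ z - θ (Γ α)) (ball z₀ (t / 8)) := by
    refine DifferentiableOn.diffContOnCl ?_
    rw [closure_ball z₀ (by positivity)]
    exact fun z hz => (hd z (neg z hz)).differentiableAt.differentiableWithinAt
  have fin := Complex.norm_deriv_le_of_forall_mem_sphere_norm_le (by positivity) dz
    fun z hz => key z (sphere_subset_closedBall hz)
  rw [(hd z₀ (by linarith)).deriv, le_div_iff₀ (by positivity)] at fin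
  rw [e]
  linarith

lemma lw_fin {c w u M C₁ C₂ x : ℝ} (hc : 0 < c)
    (h : c / 16 ≤ x * (w * (128 * M * (u * (1 + C₂)))))
    (hx : x ≤ (C₁ + 16 * C₂) * u ^ 16) (p : 0 ≤ w * (128 * M * (u * (1 + C₂)))) :
    1 ≤ 2048 * M * (1 + C₂) * (C₁ + 16 * C₂) / c * w * u ^ 17 := by
  rw [div_mul_eq_mul_div, div_mul_eq_mul_div, le_div_iff₀ hc]
  calc 1 * c = 16 * (c / 16) := by ring
    _ ≤ 16 * ((C₁ + 16 * C₂) * u ^ 16 * (w * (128 * M * (u * (1 + C₂))))) :=
      mul_le_mul_of_nonneg_left (h.trans (mul_le_mul_of_nonneg_right hx p)) (by norm_num)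
    _ = _ := by ring

theorem lw (H : S_HG) (T : S_HT) : S_LW := by
  intro a c ha hc
  refine ⟨om a, om_pos ha, om_le ha, fun M hM => ?_⟩
  obtain ⟨C₁, hC₁⟩ : ∃ C₁, C₁ = 4096 ^ 2 * M ^ 8 * (a + 17) / c ^ 8 := ⟨_, rfl⟩
  obtain ⟨C₂, hC₂⟩ : ∃ C₂, C₂ = 1000 * (a + 2) ^ 2 * C₁ ^ 2 := ⟨_, rfl⟩
  have M0 : 0 < M := by linarith
  have C₁0 : 0 < C₁ := by rw [hC₁]; positivity
  have C₂0 : 0 < C₂ := by rw [hC₂]; positivity
  refine ⟨max 1 (max C₁ (2048 * M * (1 + C₂) * (C₁ + 16 * C₂) / c)), le_max_left _ _, ?_⟩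
  intro g θ γ q hθ hAP hA γ0 γ1 hq
  obtain ⟨z, hz1, hz2, hz3⟩ := hA q.re (1 / 16) (by norm_num) le_rfl
  obtain ⟨t, ht⟩ : ∃ t, t = -z.im := ⟨_, rfl⟩
  rw [← ht] at hz1 hz2 hz3
  obtain ⟨hT, hG1⟩ := low_pt ha hc hM hAP γ0 γ1 ht hz1 hz2 hz3
  rw [← hC₁] at hT
  obtain ⟨ρ, hρ⟩ : ∃ ρ, ρ = 1 + ‖q‖ := ⟨_, rfl⟩
  have n0 := norm_nonneg q
  have ρ1 : 1 ≤ ρ := by linarith
  have ρ0 : 0 < ρ := by linarith
  have t0 : 0 < t := by linarith
  obtain ⟨u, hu⟩ : ∃ u, u = ρ ^ γ := ⟨_, rfl⟩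
  rw [← hρ, ← hu] at hT
  have u1 : 1 ≤ u := hu ▸ Real.one_le_rpow ρ1 γ0
  have u0 : 0 < u := by linarith
  have pw : ∀ k : ℕ, ρ ^ (k * γ) = u ^ k := fun k => by
    rw [hu, mul_comm, Real.rpow_mul ρ0.le, Real.rpow_natCast]
  have p8 : ρ ^ (8 * γ) = u ^ 8 := by simpa using pw 8
  have p16 : ρ ^ (16 * γ) = u ^ 16 := by simpa using pw 16
  have p17 : ρ ^ (17 * γ) = u ^ 17 := by simpa using pw 17
  refine ⟨t, hz1, ?_, fun m α β Γ m0 m1 hP => ?_⟩
  · rw [← hρ, p8]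
    exact hT.trans (mul_le_mul_of_nonneg_right (le_max_of_le_right (le_max_left _ _))
      (by positivity))
  rw [← hρ, p17]
  have R1 : 1000 * (a + 2) ^ 2 * t ^ 2 ≤ C₂ * u ^ 16 := by
    have h1 : t ^ 2 ≤ (C₁ * u ^ 8) ^ 2 := pow_le_pow_left₀ t0.le hT 2
    calc _ ≤ 1000 * (a + 2) ^ 2 * (C₁ * u ^ 8) ^ 2 := mul_le_mul_of_nonneg_left h1 (by positivity)
      _ = _ := by rw [hC₂]; ring
  have R2 : 1000 * (a + 2) ^ 2 * t ^ 2 ≤ C₂ * ρ := by
    refine R1.trans (mul_le_mul_of_nonneg_left ?_ C₂0.le)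
    rw [← p16]
    simpa using Real.rpow_le_rpow_of_exponent_le ρ1 (show 16 * γ ≤ 1 by linarith)
  have G1 : 1 ≤ 128 * M * (u * (1 + C₂)) := one_le_mul_of_one_le_of_one_le (by linarith)
    (one_le_mul_of_one_le_of_one_le u1 (by linarith))
  have hG : ∀ y : ℂ, y.im ≤ -1 / 128 → ‖y - q‖ ≤ 1000 * (a + 2) ^ 2 * t ^ 2 →
      ‖g y‖ ≤ 128 * M * (u * (1 + C₂)) := fun y h1 h2 => by
    have h3 := norm_add_le (y - q) q
    rw [sub_add_cancel] at h3
    have R3 : (1 + ‖y‖) ^ γ ≤ u * (1 + C₂) := by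
      calc (1 + ‖y‖) ^ γ ≤ (ρ * (1 + C₂)) ^ γ :=
            Real.rpow_le_rpow (by positivity) (by linarith) γ0
        _ = u * (1 + C₂) ^ γ := by rw [Real.mul_rpow ρ0.le (by positivity), hu]
        _ ≤ _ := mul_le_mul_of_nonneg_left (by
            simpa using Real.rpow_le_rpow_of_exponent_le (show 1 ≤ 1 + C₂ by linarith)
              (show γ ≤ 1 by linarith)) u0.le
    have h4 := (hAP y h1).trans (mul_le_mul_of_nonneg_left R3 M0.le)
    have h5 := mul_le_mul_of_nonneg_left (show 1 / 128 ≤ -y.im by linarith) (norm_nonneg (g y))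
    linarith
  have w0 : 0 < m ^ om a := Real.rpow_pos_of_pos m0 _
  have p : 0 ≤ m ^ om a * (128 * M * (u * (1 + C₂))) := by positivity
  have q16 : 0 < u ^ 16 := by positivity
  refine le_trans (?_ : 1 ≤ 2048 * M * (1 + C₂) * (C₁ + 16 * C₂) / c * m ^ om a * u ^ 17) (by
    gcongr
    exact le_max_of_le_right (le_max_right _ _))
  rcases hP with hP | hP
  · have o : IsOpen {y : ℂ | y.im < 0} := isOpen_lt Complex.continuous_im continuous_const
    have dg : DifferentiableOn ℂ g {y | y.im < 0} :=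
      (DifferentiableOn.deriv (fun y hy => (hθ y hy).differentiableAt.differentiableWithinAt)
        o).congr fun y hy => (hθ y hy).deriv.symm
    have k := H g q z a t m _ α β Γ dg ha hq ht (by linarith) hz2 m0 m1 G1 hG hP z
      (mem_closedBall_self (by positivity))
    refine lw_fin (x := t) hc (hG1.trans ?_) (hT.trans ?_) p
    · rw [mul_comm t]
      exact mul_le_mul_of_nonneg_right k t0.le
    · have h1 : C₁ * u ^ 8 ≤ C₁ * u ^ 16 :=
        mul_le_mul_of_nonneg_left (pow_le_pow_right₀ u1 (by norm_num)) C₁0.le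
      nlinarith [mul_pos C₂0 q16]
  · have k := T g θ q z a t m _ α β Γ hθ ha hq ht (by linarith) hz2 m0 m1 G1 hG hP
    refine lw_fin (x := 16 * (1000 * (a + 2) ^ 2 * t ^ 2)) hc (hG1.trans (k.trans_eq (by ring)))
      ?_ p
    nlinarith [mul_pos C₁0 q16]

end Vale.Agent.P097F.R
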