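import Vale.Agent.P097F.R.Defs
import Vale.Agent.P097F.NC.Sim

/-! # P097F.R: a piece with a small drop, and spirals -/

set_option linter.all false

noncomputable section

namespace Vale.Agent.P097F.R

open Filter Topology Set Metric
open Vale.Agent.P097F.NC

theorem pc_first (Γ : ℝ → ℂ) (h α β : ℝ) (hαβ : α ≤ β) (hc : ContinuousOn Γ (Icc α β))
    (hh : 0 < h) (hl : h ≤ ‖Γ β - Γ α‖) :
    ∃ s' ∈ Icc α β, ‖Γ s' - Γ α‖ = h ∧ ∀ u ∈ Icc α s', ‖Γ u - Γ α‖ ≤ h := by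
  have := (exit (fun u => ‖Γ u - Γ α‖) α β h hαβ (hc.sub continuousOn_const).norm
    (by simpa using hh.le) hl).2
  exact this

theorem pc : S_PC := by
  intro Γ φ h β n α hαβ hc hφ hh hn
  induction n, hn using Nat.le_induction generalizing α with
  | base =>
    intro hl
    obtain ⟨s', hs', e, k⟩ := pc_first Γ h α β hαβ hc hh (by simpa using hl)
    refine ⟨α, s', le_rfl, hs'.1, hs'.2, e, k, ?_⟩
    have := hφ hs' ⟨hαβ, le_rfl⟩ hs'.2
    push_cast
    linarith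
  | succ n hn ih =>
    intro hl
    have hn' : (1 : ℝ) ≤ n := by exact_mod_cast hn
    push_cast at hl ⊢
    obtain ⟨s', hs', e, k⟩ := pc_first Γ h α β hαβ hc hh (by nlinarith)
    have h1 : n * h ≤ ‖Γ β - Γ s'‖ := by
      have : ‖Γ β - Γ α‖ ≤ ‖Γ β - Γ s'‖ + ‖Γ s' - Γ α‖ := norm_sub_le_norm_sub_add_norm_sub _ _ _
      linarith
    obtain ⟨s₁, s₂, a, b, c, d, e', f⟩ := ih s' hs'.2 (hc.mono (Icc_subset_Icc_left hs'.1))
      (hφ.mono (Icc_subset_Icc_left hs'.1)) h1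
    by_cases hd : φ α - φ s' ≤ φ s₁ - φ s₂
    · refine ⟨α, s', le_rfl, hs'.1, hs'.2, e, k, ?_⟩
      have : (φ α - φ s') * n ≤ (φ s₁ - φ s₂) * n := by gcongr
      linarith
    · refine ⟨s₁, s₂, hs'.1.trans a, b, c, d, e', ?_⟩
      linarith

theorem ex_norm (κ : ℂ) (u : ℝ) (h1 : κ.re = 1) : ‖Complex.exp (-(κ * u))‖ = Real.exp (-u) := by
  rw [Complex.norm_exp]
  simp [h1]

theorem ex_key (κ : ℂ) (u : ℝ) (h1 : κ.re = 1) (h2 : |κ.im| ≤ 1) (hu : 0 ≤ u) :
    ‖Complex.exp (-(κ * u)) - 1‖ ≤ 2 * (1 - Real.exp (-u)) := by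
  have e : Complex.exp (-(κ * u)) - 1 = (Real.exp (-u) : ℂ) *
      (Complex.exp (Complex.I * ((-(κ.im * u) : ℝ) : ℂ)) - 1) + ((Real.exp (-u) - 1 : ℝ) : ℂ) := by
    have : -(κ * u) = ((-u : ℝ) : ℂ) + Complex.I * ((-(κ.im * u) : ℝ) : ℂ) := by
      apply Complex.ext <;> simp [h1]
    rw [this, Complex.exp_add, ← Complex.ofReal_exp]
    push_cast
    ring
  have h3 : ‖Complex.exp (Complex.I * ((-(κ.im * u) : ℝ) : ℂ)) - 1‖ ≤ u := by
    refine Real.norm_exp_I_mul_ofReal_sub_one_le.trans ?_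
    rw [norm_neg, Real.norm_eq_abs, abs_mul, abs_of_nonneg hu]
    nlinarith
  have h4 : Real.exp (-u) ≤ 1 := Real.exp_le_one_iff.2 (by linarith)
  have h5 : Real.exp (-u) * u ≤ 1 - Real.exp (-u) := by
    have a := Real.add_one_le_exp u
    have b : Real.exp (-u) * Real.exp u = 1 := by rw [← Real.exp_add]; simp
    have c := Real.exp_pos (-u)
    nlinarith
  rw [e]
  refine (norm_add_le _ _).trans ?_
  rw [norm_mul, Complex.norm_real, Complex.norm_real, Real.norm_eq_abs, Real.norm_eq_abs,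
    abs_of_pos (Real.exp_pos _), abs_of_nonpos (by linarith)]
  have : Real.exp (-u) * ‖Complex.exp (Complex.I * ((-(κ.im * u) : ℝ) : ℂ)) - 1‖ ≤
      Real.exp (-u) * u := mul_le_mul_of_nonneg_left h3 (Real.exp_pos _).le
  linarith

theorem ex : S_EXP := by
  intro g Ω κ y p τ h1 h2 H s s' a b c
  have e : g (p s') = Complex.exp (-(κ * ((s' - s : ℝ) : ℂ))) * g (p s) := by
    rw [H.val s ⟨a, b.trans c⟩, H.val s' ⟨a.trans b, c⟩, ← mul_assoc, ← Complex.exp_add]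
    congr 2
    push_cast
    ring
  have k := ex_key κ (s' - s) h1 h2 (by linarith)
  have n : ‖g (p s')‖ = Real.exp (-(s' - s)) * ‖g (p s)‖ := by
    rw [e, norm_mul, ex_norm κ _ h1]
  have d : g (p s') - g (p s) = (Complex.exp (-(κ * ((s' - s : ℝ) : ℂ))) - 1) * g (p s) := by
    rw [e]; ring
  rw [d, norm_mul, n]
  have := mul_le_mul_of_nonneg_right k (norm_nonneg (g (p s)))
  linarith

end Vale.Agent.P097F.R
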