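import Vale.Agent.P097F.R.Defs

/-! P097F.R: a long descent line has descended -/

set_option linter.all false

noncomputable section

namespace Vale.Agent.P097F.R

open Filter Topology Set Metric
open Vale.Agent.P097F.NC

theorem r0_ap {g : ℂ → ℂ} {γ M ρ ω : ℝ} (h : AP g γ M) (hM : 1 ≤ M) (hρ : 32 ≤ ρ) (g0 : 0 ≤ γ)
    (g1 : γ ≤ ω / 10) {z : ℂ} (hz : z.im ≤ -1 / 128) (hn : ‖z‖ ≤ 4 * ρ ^ 4) :
    ‖g z‖ * (-z.im) ≤ M * ρ ^ (ω / 2) := by
  refine (h z hz).trans (mul_le_mul_of_nonneg_left ?_ (by linarith))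
  have h4 : 1 ≤ ρ ^ 4 := one_le_pow₀ (by linarith)
  have h5 : 1 + ‖z‖ ≤ ρ ^ (5 : ℝ) := by
    rw [show (5 : ℝ) = (5 : ℕ) by norm_num, Real.rpow_natCast, pow_succ]
    nlinarith
  calc (1 + ‖z‖) ^ γ ≤ (ρ ^ (5 : ℝ)) ^ γ := Real.rpow_le_rpow (by positivity) h5 g0
    _ = ρ ^ (5 * γ) := (Real.rpow_mul (by linarith) _ _).symm
    _ ≤ ρ ^ (ω / 2) := Real.rpow_le_rpow_of_exponent_le (by linarith) (by linarith)

theorem r0_vt (ξ s : ℝ) (hs : 0 ≤ s) : ‖vt ξ s‖ ≤ |ξ| + s := by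
  have := Complex.norm_le_abs_re_add_abs_im (vt ξ s)
  rwa [vt_re, vt_im, abs_neg, abs_of_nonneg hs] at this

theorem r0_num {ρ : ℝ} (h : 32 ≤ ρ) : 1000 * ρ ^ 2 ≤ ρ ^ 4 ∧ ρ ≤ ρ ^ 2 := by
  have a : 1000 ≤ ρ ^ 2 := by nlinarith
  exact ⟨by nlinarith, by nlinarith⟩

theorem r0 (H : S_HG) (P : S_PC) : S_R0 := by
  have w0 : 0 < om 0 := om_pos le_rfl
  have w1 : om 0 ≤ 1 := om_le le_rfl
  refine ⟨om 0 / 2, by linarith, by linarith, fun M hM => ?_⟩
  refine ⟨max 32 ((260 * M) ^ (4 / om 0)), fun ρ hρ g γ α β Γ hg hA g0 g1 hab hc hΓ hD h1 hL => ?_⟩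
  have r32 : 32 ≤ ρ := (le_max_left _ _).trans hρ
  have r0 : 0 < ρ := by linarith
  set E := ρ ^ (om 0 / 2 / 2) with hE
  have hEM : 260 * M ≤ E := by
    have := Real.rpow_le_rpow (by positivity) ((le_max_right _ _).trans hρ)
      (show 0 ≤ om 0 / 2 / 2 by positivity)
    rwa [← Real.rpow_mul (by positivity), show 4 / om 0 * (om 0 / 2 / 2) = 1 by field_simp; norm_num,
      Real.rpow_one] at this
  have E0 : 0 < E := by linarith
  have e2 : ρ ^ (-(om 0 / 2)) = (E ^ 2)⁻¹ := by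
    rw [Real.rpow_neg r0.le, hE, ← Real.rpow_natCast, ← Real.rpow_mul r0.le]
    congr 2
    push_cast
    ring
  have e4 : ρ ^ om 0 = E ^ 4 := by
    rw [hE, ← Real.rpow_natCast, ← Real.rpow_mul r0.le]
    congr 1
    push_cast
    ring
  have e5 : E ^ 4 ≤ ρ := by
    rw [← e4]
    exact (Real.rpow_le_rpow_of_exponent_le (by linarith) w1).trans_eq (Real.rpow_one ρ)
  have n1 : ρ ≤ ⌈ρ⌉₊ := Nat.le_ceil ρ
  have n2 : (⌈ρ⌉₊ : ℝ) ≤ 2 * ρ := by linarith [Nat.ceil_lt_add_one r0.le]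
  obtain ⟨s, s', k1, k2, k3, k4, k5, k6⟩ := P Γ (fun s => ‖g (Γ s)‖) (ρ / 4) β ⌈ρ⌉₊ α hab hc
    hD.anti (by linarith) (Nat.ceil_pos.2 r0)
      (by linarith [mul_le_mul_of_nonneg_right n2 r0.le, sq ρ])
  have ms : s ∈ Icc α β := ⟨k1, k2.trans k3⟩
  have c1 : ‖g (Γ s)‖ ≤ 1 := (hD.anti ⟨le_rfl, hab⟩ ms k1).trans h1
  have c2 : ‖g (Γ β)‖ ≤ ‖g (Γ s)‖ := hD.anti ms ⟨hab, le_rfl⟩ ms.2
  have c3 : ∀ u ∈ Icc s s', ‖g (Γ u) - g (Γ s)‖ ≤ 2 / ρ := by
    intro u hu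
    have a := hD s u k1 hu.1 (hu.2.trans k3)
    have b : ‖g (Γ s')‖ ≤ ‖g (Γ u)‖ :=
      hD.anti ⟨k1.trans hu.1, hu.2.trans k3⟩ ⟨k1.trans k2, k3⟩ hu.2
    have d : ‖g (Γ s')‖ ≤ ‖g (Γ s)‖ := hD.anti ms ⟨k1.trans k2, k3⟩ k2
    have e := norm_nonneg (g (Γ β))
    rw [le_div_iff₀ r0]
    have f := mul_le_mul_of_nonneg_left n1 (sub_nonneg.2 d)
    have i := mul_le_mul_of_nonneg_right
      (show ‖g (Γ u) - g (Γ s)‖ ≤ 2 * (‖g (Γ s)‖ - ‖g (Γ s')‖) by linarith) r0.le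
    linarith
  obtain ⟨p4, p2⟩ := r0_num r32
  have hs := hΓ s ms
  have key : ‖g (Γ s)‖ * E ^ 4 ≤ 260 * M * E := by
    have ME : 0 < M * E := by positivity
    by_cases hd : ρ / 4 ≤ -(Γ s).im
    · have a := r0_ap hA hM r32 g0 g1 (z := Γ s) (by linarith [hs.1]) (by linarith [hs.2])
      have b := mul_le_mul_of_nonneg_left hd (norm_nonneg (g (Γ s)))
      have d := mul_le_mul_of_nonneg_left e5 (norm_nonneg (g (Γ s)))
      rw [← hE] at a
      linarith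
    · rw [not_le] at hd
      have x1 : |(Γ s).re| ≤ 2 * ρ ^ 4 := (Complex.abs_re_le_norm _).trans hs.2
      have E1 : 1 ≤ M * E := one_le_mul_of_one_le_of_one_le hM (by linarith)
      have a := H (fun z => g z - g (Γ s)) (vt (Γ s).re (1 / 64)) (vt (Γ s).re (ρ / 2)) 0 (ρ / 2)
        (2 / ρ) (128 * (M * E) + 1) s s' Γ (hg.sub_const _) le_rfl (by simp; norm_num) (by simp)
        (by linarith) (by simp) (by positivity) (by rw [div_le_one r0]; linarith) (by linarith)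
        (fun z z1 z2 => by
          have b := r0_vt (Γ s).re (1 / 64) (by norm_num)
          have d := norm_le_norm_add_norm_sub' z (vt (Γ s).re (1 / 64))
          have e := r0_ap hA hM r32 g0 g1 z1 (by linarith)
          rw [← hE] at e
          have f := mul_le_mul_of_nonneg_left (show 1 / 128 ≤ -z.im by linarith)
            (norm_nonneg (g z))
          have := norm_sub_le (g z) (g (Γ s))
          linarith)
        ⟨k2, hc.mono (Icc_subset_Icc k1 k3), by linarith, fun u hu => ⟨(hΓ u ⟨k1.trans hu.1,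
          hu.2.trans k3⟩).1, by
            have b := Complex.norm_le_abs_re_add_abs_im (Γ s - vt (Γ s).re (1 / 64))
            rw [Complex.sub_re, Complex.sub_im, vt_re, vt_im, sub_self, abs_zero,
              abs_of_nonpos (by linarith [hs.1])] at b
            have d := norm_sub_le_norm_sub_add_norm_sub (Γ u) (Γ s) (vt (Γ s).re (1 / 64))
            linarith [k5 u hu], c3 u hu⟩⟩ _ (mem_closedBall_self (by linarith))
      have b := r0_ap hA hM r32 g0 g1 (z := vt (Γ s).re (ρ / 2)) (by rw [vt_im]; linarith)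
        (by linarith [r0_vt (Γ s).re (ρ / 2) (by linarith)])
      rw [← hE, vt_im, neg_neg] at b
      have d : (2 / ρ) ^ om 0 * E ^ 4 ≤ 2 := by
        rw [Real.div_rpow (by norm_num) r0.le, e4, div_mul_cancel₀ _ (by positivity)]
        exact (Real.rpow_le_rpow_of_exponent_le (by norm_num) w1).trans_eq (Real.rpow_one 2)
      have e := norm_le_norm_add_norm_sub' (g (Γ s)) (g (vt (Γ s).re (ρ / 2)))
      rw [norm_sub_rev] at e
      have f := mul_le_mul_of_nonneg_left e5 (norm_nonneg (g (vt (Γ s).re (ρ / 2))))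
      have i := mul_le_mul_of_nonneg_right a (pow_pos E0 4).le
      have j := mul_le_mul_of_nonneg_right d (show 0 ≤ 128 * (M * E) + 1 by linarith)
      have k := mul_le_mul_of_nonneg_right e (pow_pos E0 4).le
      linarith
  rw [e2, ← one_div, le_div_iff₀ (by positivity)]
  have a := mul_le_mul_of_nonneg_right c2 (pow_pos E0 4).le
  have b := mul_le_mul_of_nonneg_right hEM E0.le
  have d : ‖g (Γ β)‖ * E ^ 2 * E ^ 2 ≤ 1 * E ^ 2 := by linarith
  exact le_of_mul_le_mul_right d (pow_pos E0 2)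

end Vale.Agent.P097F.R
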