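import Vale.Agent.P097F.R.Defs

/-!
# P097F.R: the curve is calm near the leaf
-/

set_option linter.all false

noncomputable section

namespace Vale.Agent.P097F.R

open Filter Topology Set Metric
open Vale.Agent.P097F.NC

theorem sm (T : S_HT) : S_SM := by
  have w0 : 0 < om 0 := om_pos le_rfl
  have w1 : om 0 ≤ 1 := om_le le_rfl
  set w := om 0 with hw
  refine ⟨w / 16, by positivity, by linarith, fun n => ⟨w / 64 / (n + 2), by positivity,
    fun M D M1 D1 => ?_⟩⟩
  obtain ⟨r₁, hr⟩ := eventually_atTop.1 ((eventually_ge_atTop (1 : ℝ)).and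
    ((tendsto_rpow_atTop (show 0 < w / 64 by positivity)).eventually_ge_atTop (8192000 * M * D)))
  refine ⟨r₁, fun s hs g θ γ y y₁ hθ hA γ0 γ1 ht hy hn hL => ?_⟩
  obtain ⟨s1, hu⟩ := hr s hs
  have s0 : 0 < s := by linarith
  set u := s ^ (w / 64) with hU
  have MD : 1 ≤ M * D := one_le_mul_of_one_le_of_one_le M1 D1
  have uM : M ≤ u := by nlinarith
  have uD : D ≤ u := by nlinarith
  have u4 : 4001 ≤ u := by nlinarith
  have u1 : 1 ≤ u := by linarith
  have u0 : 0 < u := by linarith
  have e64 : u ^ 64 = s ^ w := by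
    rw [hU, ← Real.rpow_natCast, ← Real.rpow_mul s0.le]
    congr 1
    push_cast
    ring
  have e4 : s ^ (-(w / 16)) = (u ^ 4)⁻¹ := by
    rw [Real.rpow_neg s0.le, hU, ← Real.rpow_natCast, ← Real.rpow_mul s0.le]
    congr 2
    push_cast
    ring
  have us : u ^ 64 ≤ s := by
    rw [e64]
    simpa using Real.rpow_le_rpow_of_exponent_le s1 w1
  have up : ∀ i j : ℕ, i ≤ j → u ^ i ≤ u ^ j := fun i j h => pow_le_pow_right₀ u1 h
  have us1 : u ≤ s := by simpa using (up 1 64 (by norm_num)).trans us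
  have s2 : 2 ≤ s := by linarith
  have sn : 1 ≤ s ^ n := one_le_pow₀ s1
  have y1 : 1 + ‖y‖ ≤ s ^ (n + 1) := by
    have := norm_sub_le_norm_sub_add_norm_sub y y₁ 0
    simp only [sub_zero] at this
    rw [pow_succ]
    nlinarith
  have sn1 : s ≤ s ^ (n + 1) := by rw [pow_succ]; nlinarith
  have pw : ∀ x : ℝ, 0 ≤ x → x ≤ s ^ (n + 2) → x ^ γ ≤ u := fun x x0 hx => by
    calc x ^ γ ≤ (s ^ (n + 2)) ^ γ := Real.rpow_le_rpow x0 hx γ0
      _ ≤ (s ^ (n + 2)) ^ (w / 64 / (n + 2)) :=
        Real.rpow_le_rpow_of_exponent_le (one_le_pow₀ s1) γ1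
      _ = u := by
        rw [hU, ← Real.rpow_natCast, ← Real.rpow_mul s0.le]
        congr 1
        push_cast
        field_simp
  have sn2 : s ^ (n + 1) + s ≤ s ^ (n + 2) := by rw [pow_succ s (n + 1)]; nlinarith
  rw [e4]
  set t := -y.im with hT
  have t0 : 0 < t := by linarith
  rcases le_or_gt (u ^ 8) t with h | h
  · have a1 := hA y (by linarith)
    have a2 := pw (1 + ‖y‖) (by positivity) (by linarith)
    have a3 : ‖g y‖ * u ^ 8 ≤ u * u := (mul_le_mul_of_nonneg_left h (norm_nonneg _)).trans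
      (a1.trans (mul_le_mul uM a2 (by positivity) u0.le))
    rw [← one_div, le_div_iff₀ (by positivity)]
    have a4 : ‖g y‖ * u ^ 4 * u ^ 4 ≤ 1 * u ^ 4 := by nlinarith [up 2 4 (by norm_num)]
    exact le_of_mul_le_mul_right a4 (by positivity)
  · have b1 : |(y - y₁).im| ≤ 1 / 1000 := (Complex.abs_im_le_norm _).trans hy
    rw [Complex.sub_im, abs_le] at b1
    obtain ⟨α, β, Λ, ab, cΛ, e0, e1, hΛ⟩ := hL t ht (h.le.trans ((up 8 64 (by norm_num)).trans us))
      (by linarith)
    have yq : ‖y - vt y.re (1 / 64)‖ = t - 1 / 64 := by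
      rw [show y - vt y.re (1 / 64) = ((-(t - 1 / 64) : ℝ) : ℂ) * Complex.I from
        Complex.ext (by simp) (by simp [hT]; ring), norm_mul, Complex.norm_I, mul_one,
        Complex.norm_real, Real.norm_eq_abs, abs_neg, abs_of_nonneg (by linarith)]
    have m0 : 0 < D / s := by positivity
    have key := T g θ (vt y.re (1 / 64)) y 0 t (D / s) (128 * M * u) α β Λ hθ le_rfl
      (by simp; norm_num) rfl ht (by simp) m0 (by rw [div_le_one s0]; linarith)
      (by linarith [one_le_mul_of_one_le_of_one_le M1 u1])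
      (fun z z1 z2 => by
        have c1 := hA z z1
        have c2 : t ^ 2 ≤ u ^ 16 := by
          have := pow_le_pow_left₀ t0.le h.le 2
          rwa [← pow_mul] at this
        have c3 : 4001 * u ^ 16 ≤ s := by
          have := up 17 64 (by norm_num)
          rw [pow_succ u 16] at this
          linarith [mul_le_mul_of_nonneg_left u4 (pow_pos u0 16).le]
        have c4 : ‖z‖ ≤ ‖z - vt y.re (1 / 64)‖ + ‖y - vt y.re (1 / 64)‖ + ‖y‖ := by
          have := norm_add_le (z - vt y.re (1 / 64) - (y - vt y.re (1 / 64))) y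
          rw [show z - vt y.re (1 / 64) - (y - vt y.re (1 / 64)) + y = z by ring] at this
          linarith [norm_sub_le (z - vt y.re (1 / 64)) (y - vt y.re (1 / 64))]
        have c5 := pw (1 + ‖z‖) (by positivity) (by
          rw [yq] at c4
          linarith [up 8 16 (by norm_num)])
        have c6 := c1.trans (mul_le_mul_of_nonneg_left c5 (by linarith))
        linarith [mul_le_mul_of_nonneg_left (show 1 / 128 ≤ -z.im by linarith)
          (norm_nonneg (g z))])
      ⟨ab, cΛ, by rw [e0, e1], fun v hv => by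
        obtain ⟨d1, d2, d3⟩ := hΛ v hv
        refine ⟨by linarith, ?_, by rwa [e0]⟩
        have := norm_sub_le_norm_sub_add_norm_sub (Λ v) y₁ (vt y.re (1 / 64))
        have := norm_sub_le_norm_sub_add_norm_sub y₁ y (vt y.re (1 / 64))
        rw [norm_sub_rev y₁ y] at this
        linarith⟩
    have f1 : (D / s) ^ w ≤ D / u ^ 64 := by
      rw [Real.div_rpow (by linarith) s0.le, e64]
      refine div_le_div_of_nonneg_right ?_ (by positivity)
      simpa using Real.rpow_le_rpow_of_exponent_le D1 w1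
    have f2 : ‖g y‖ * t ≤ 8 * (D / u ^ 64) * (2000 * (0 + 2) ^ 2 * t ^ 2 * (128 * M * u)) :=
      key.trans (by gcongr)
    have f3 : ‖g y‖ ≤ 8192000 * M * D * t * u / u ^ 64 := by
      refine le_of_mul_le_mul_right (f2.trans_eq ?_) t0
      ring
    refine f3.trans ?_
    rw [← one_div, div_le_div_iff₀ (by positivity) (by positivity)]
    calc 8192000 * M * D * t * u * u ^ 4 ≤ u * u ^ 8 * u * u ^ 4 := by gcongr
      _ = u ^ 14 := by ring
      _ ≤ _ := by simpa using up 14 64 (by norm_num)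

end Vale.Agent.P097F.R
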