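import Vale.Agent.P097F.R.Defs
import Vale.Agent.P097F.NC.Sim
import Vale.Agent.P097F.NC.Core

/-!
# P097F.R: the descent line
-/

set_option linter.all false

noncomputable section

namespace Vale.Agent.P097F.R

open Filter Topology Set Metric
open Vale.Agent.P097F.NC

/-- last passage through a circle -/
theorem trl_last {Γ : ℝ → ℂ} {q : ℂ} {α β ρ : ℝ} (hle : α ≤ β) (hc : ContinuousOn Γ (Icc α β))
    (h0 : ρ ≤ ‖Γ α - q‖) (h1 : ‖Γ β - q‖ ≤ ρ) :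
    ∃ s ∈ Icc α β, ‖Γ s - q‖ = ρ ∧ ∀ u ∈ Icc s β, ‖Γ u - q‖ ≤ ρ := by
  obtain ⟨s, hs, e1, e2⟩ := (NC.exit (fun u => -‖Γ u - q‖) α β (-ρ) hle
    (hc.sub continuousOn_const).norm.neg (by linarith) (by linarith)).1
  exact ⟨s, hs, by linarith, fun u hu => by linarith [e2 u hu]⟩

theorem trl_fin {ω w C γ ρ s : ℝ} {n : ℕ} (hC : 1 ≤ C) (hγ : 0 ≤ γ)
    (hγ' : n * (17 * γ) ≤ w * ω / 2) (hρ : 0 ≤ ρ) (hs : 1 ≤ s) (h : ρ ≤ s ^ n)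
    (hbig : C < s ^ (w * ω / 2)) : ¬ 1 ≤ C * (s ^ (-w)) ^ ω * ρ ^ (17 * γ) := by
  intro h1
  have hs0 : 0 < s := by linarith
  have a1 : ρ ^ (17 * γ) ≤ s ^ (w * ω / 2) := core_pw hρ hs h (by linarith) hγ'
  have a3 : (s ^ (-w)) ^ ω * s ^ (w * ω / 2) * s ^ (w * ω / 2) = 1 := by
    rw [← Real.rpow_mul hs0.le, ← Real.rpow_add hs0, ← Real.rpow_add hs0]
    have : -w * ω + w * ω / 2 + w * ω / 2 = 0 := by ring
    rw [this, Real.rpow_zero]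
  have a4 : 0 < s ^ (w * ω / 2) := Real.rpow_pos_of_pos hs0 _
  have a5 : 0 < (s ^ (-w)) ^ ω := Real.rpow_pos_of_pos (Real.rpow_pos_of_pos hs0 _) _
  generalize s ^ (w * ω / 2) = u at *
  generalize (s ^ (-w)) ^ ω = v at *
  have a6 : C * v * ρ ^ (17 * γ) ≤ C * v * u :=
    mul_le_mul_of_nonneg_left a1 (by positivity)
  have a7 : C * (v * u) < u * (v * u) := mul_lt_mul_of_pos_right hbig (by positivity)
  nlinarith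

theorem trl_half {C s t x : ℝ} (hs : 0 < s) (hC : C ≤ s ^ (1 / 2 : ℝ)) (hx : x ≤ s ^ (1 / 2 : ℝ))
    (x0 : 0 ≤ x) (ht : t ≤ C * x) : t ≤ s := by
  have e : s ^ (1 / 2 : ℝ) * s ^ (1 / 2 : ℝ) = s := by
    rw [← Real.rpow_add hs]; norm_num
  have := mul_le_mul hC hx x0 (Real.rpow_nonneg hs.le _)
  linarith

/-- the end of the line as a calm path -/
theorem trl_pc {g : ℂ → ℂ} {Γ : ℝ → ℂ} {α β t m : ℝ} (t0 : 0 ≤ t) (hle : α ≤ β)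
    (hc : ContinuousOn Γ (Icc α β)) (hi : ∀ u ∈ Icc α β, (Γ u).im ≤ -1 / 64)
    (e : ‖Γ α - Γ β‖ = t / 2) (hb : ∀ u ∈ Icc α β, ‖Γ u - Γ β‖ ≤ t / 2) (hD : Dsc g Γ α β)
    (hm : ‖g (Γ α)‖ ≤ m) : Pc g (Γ β) t m α β Γ :=
  ⟨hle, hc, by rw [norm_sub_rev, e], fun u hu => ⟨hi u hu, by linarith [hb u hu],
    (hD.anti ⟨le_rfl, hle⟩ hu hu.1).trans hm⟩⟩

theorem trl_pw {σ : ℝ} (h : 4 ≤ σ) : 4 * σ ≤ σ ^ 2 ∧ 16 * σ ^ 2 ≤ σ ^ 4 := by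
  have p2 : 4 * σ ≤ σ ^ 2 := by nlinarith
  exact ⟨p2, by nlinarith⟩

theorem trl_dg {g θ : ℂ → ℂ} (hθ : ∀ y : ℂ, y.im < 0 → HasDerivAt θ (g y) y) :
    DifferentiableOn ℂ g {y | y.im < 0} := by
  have k : DifferentiableOn ℂ θ {y | y.im < 0} := fun y hy =>
    (hθ y hy).differentiableAt.differentiableWithinAt
  exact (k.deriv (isOpen_lt Complex.continuous_im continuous_const)).congr
    fun y hy => (hθ y hy).deriv.symm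

/-- the far case -/
theorem trl_far {g : ℂ → ℂ} {Γ : ℝ → ℂ} {β t σ m : ℝ} (β0 : 0 ≤ β) (t0 : 0 ≤ t) (σ4 : 4 ≤ σ)
    (u1 : t ≤ σ) (hσ : σ ^ 4 = 1 + ‖Γ β‖) (h0 : ‖Γ 0‖ ≤ σ) (hc' : ContinuousOn Γ (Icc 0 β))
    (hi : ∀ u ∈ Icc 0 β, (Γ u).im ≤ -1 / 64) (hD' : Dsc g Γ 0 β) (hg0 : ‖g (Γ 0)‖ ≤ 1)
    (hR : ∀ α β' : ℝ, α ≤ β' → ContinuousOn Γ (Icc α β') →
      (∀ s ∈ Icc α β', (Γ s).im ≤ -1 / 64 ∧ ‖Γ s‖ ≤ 2 * σ ^ 4) → Dsc g Γ α β' → ‖g (Γ α)‖ ≤ 1 →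
      σ ^ 2 / 2 ≤ ‖Γ β' - Γ α‖ → ‖g (Γ β')‖ ≤ m) : ∃ α, Pc g (Γ β) t m α β Γ := by
  obtain ⟨p2, p4⟩ := trl_pw σ4
  have d1 : σ ^ 2 ≤ ‖Γ 0 - Γ β‖ := by
    have k1 := norm_sub_norm_le (Γ β) (Γ 0)
    rw [norm_sub_rev] at k1
    linarith
  obtain ⟨α₀, hα₀, e1, e2⟩ := trl_last β0 hc' d1 (by simp; positivity)
  have sub : Icc α₀ β ⊆ Icc 0 β := Icc_subset_Icc_left hα₀.1
  obtain ⟨α, hα, e3, e4⟩ := trl_last (q := Γ β) (ρ := t / 2) hα₀.2 (hc'.mono sub) (by linarith)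
    (by simp; linarith)
  have sub' : Icc α β ⊆ Icc 0 β := Icc_subset_Icc_left (hα₀.1.trans hα.1)
  have sub2 : Icc α₀ α ⊆ Icc α₀ β := Icc_subset_Icc_right hα.2
  have k := hR α₀ α hα.1 (hc'.mono (sub2.trans sub))
    (fun v hv => ⟨hi v (sub (sub2 hv)), by
      have := norm_sub_norm_le (Γ v) (Γ β)
      linarith [e2 v (sub2 hv)]⟩)
    (hD'.mono hα₀.1 hα.2) ((hD'.anti ⟨le_rfl, β0⟩ hα₀ hα₀.1).trans hg0) (by
      have := norm_sub_le_norm_sub_add_norm_sub (Γ α₀) (Γ α) (Γ β)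
      rw [norm_sub_rev (Γ α₀) (Γ α)] at this
      linarith)
  exact ⟨α, trl_pc t0 hα.2 (hc'.mono sub') (fun v hv => hi v (sub' hv)) e3 e4
    (hD'.mono (hα₀.1.trans hα.1) le_rfl) k⟩

/-- the near case -/
theorem trl_near {g θ : ℂ → ℂ} {Γ : ℝ → ℂ} {y₁ : ℂ} {β t s m D : ℝ} (β0 : 0 ≤ β)
    (t1 : 1 / 16 ≤ t) (u1 : t ≤ s) (he : (Γ β).im = -1 / 64) (hc' : ContinuousOn Γ (Icc 0 β))
    (hi : ∀ u ∈ Icc 0 β, (Γ u).im ≤ -1 / 64) (hD' : Dsc g Γ 0 β) (hg0 : ‖g (Γ 0)‖ ≤ m)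
    (h01 : ‖Γ 0 - y₁‖ ≤ 1 / 1000) (hLP : LP θ y₁ s D) :
    (∃ α, Pc g (Γ β) t m α β Γ) ∨
      ∃ α' β' Λ, Pc (fun z => θ z - θ (Λ α')) (Γ β) t (D / s) α' β' Λ := by
  by_cases hA : ∃ u ∈ Icc 0 β, t / 2 ≤ ‖Γ u - Γ β‖
  · obtain ⟨u, hu, hu'⟩ := hA
    have sub : Icc u β ⊆ Icc 0 β := Icc_subset_Icc_left hu.1
    obtain ⟨α, hα, e1, e2⟩ := trl_last hu.2 (hc'.mono sub) hu' (by simp; linarith)
    have sub' : Icc α β ⊆ Icc 0 β := Icc_subset_Icc_left (hu.1.trans hα.1)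
    exact Or.inl ⟨α, trl_pc (by linarith) hα.2 (hc'.mono sub')
      (fun v hv => hi v (sub' hv)) e1 e2 (hD'.mono (hu.1.trans hα.1) le_rfl)
      ((hD'.anti ⟨le_rfl, β0⟩ (sub hα) (hu.1.trans hα.1)).trans hg0)⟩
  · push Not at hA
    have d1 : ‖y₁ - Γ β‖ ≤ t / 2 + 1 / 1000 := by
      have := norm_sub_le_norm_sub_add_norm_sub y₁ (Γ 0) (Γ β)
      rw [norm_sub_rev y₁ (Γ 0)] at this
      linarith [hA 0 ⟨le_rfl, β0⟩]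
    have d2 : -y₁.im ≤ 2 * t := by
      have k1 := neg_abs_le (y₁ - Γ β).im
      have k2 := Complex.abs_im_le_norm (y₁ - Γ β)
      rw [Complex.sub_im] at k1 k2
      linarith
    obtain ⟨α', β', Λ, l1, l2, l3, l4, l5⟩ := hLP t (by linarith) u1 d2
    refine Or.inr ⟨α', β', Λ, l1, l2, by rw [l3, l4], fun v hv =>
      ⟨by linarith [(l5 v hv).1], ?_, ?_⟩⟩
    · have := norm_sub_le_norm_sub_add_norm_sub (Λ v) y₁ (Γ β)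
      linarith [(l5 v hv).2.1]
    · rw [l3]
      exact (l5 v hv).2.2

theorem trl_ga {ω γ N : ℝ} (hω : ω ≤ 1) (γ0 : 0 ≤ γ) (N8 : 8 ≤ N) (g2 : γ * (34 * N) ≤ ω) :
    γ ≤ 1 / 64 ∧ N * (8 * γ) ≤ 1 / 2 := by
  constructor <;> nlinarith

theorem trl (L : S_LW) (R : S_R0) : S_TRL := by
  intro a c ω₁ n ha hc hω₁ hn
  obtain ⟨ω, hω, hω', hL⟩ := L a c ha hc
  obtain ⟨ω₂, h2, h2', hR⟩ := R
  obtain ⟨N, hN⟩ : ∃ N : ℕ, N = 8 * n := ⟨_, rfl⟩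
  have N8 : (8 : ℝ) ≤ N := by exact_mod_cast (by omega : 8 ≤ N)
  refine ⟨min (min (ω₁ * ω / (34 * N)) (ω / (34 * N))) (min (ω₂ * ω / 136) (ω₂ / 10)),
    by positivity, fun M D hM hD => ?_⟩
  obtain ⟨C, hC, hL⟩ := hL M hM
  obtain ⟨ρ₁, hR⟩ := hR M hM
  have E : ∀ᶠ s : ℝ in atTop, (4 ≤ s ∧ D ≤ s ∧ ρ₁ ≤ s) ∧ C < s ^ (ω₁ * ω / 2) ∧
      C * D < s ^ (ω / 2) ∧ C < s ^ (ω₂ * ω / 2) ∧ C ≤ s ^ (1 / 2 : ℝ) := by
    filter_upwards [eventually_ge_atTop 4, eventually_ge_atTop D, eventually_ge_atTop ρ₁,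
      (tendsto_rpow_atTop (by positivity : 0 < ω₁ * ω / 2)).eventually_gt_atTop C,
      (tendsto_rpow_atTop (by positivity : 0 < ω / 2)).eventually_gt_atTop (C * D),
      (tendsto_rpow_atTop (by positivity : 0 < ω₂ * ω / 2)).eventually_gt_atTop C,
      (tendsto_rpow_atTop (by positivity : (0 : ℝ) < 1 / 2)).eventually_ge_atTop C]
      with s a1 a2 a3 a4 a5 a6 a7
    exact ⟨⟨a1, a2, a3⟩, a4, a5, a6, a7⟩
  obtain ⟨r₁, hr₁⟩ := eventually_atTop.1 E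
  refine ⟨r₁, fun s hs g θ γ τ y₁ Γ hθ hAP hAct γ0 γ1 τ0 hcont h0 h01 hy₁ hLP hg0 hDs => ?_⟩
  have g1 : γ ≤ ω₁ * ω / (34 * N) := γ1.trans ((min_le_left _ _).trans (min_le_left _ _))
  have g2 : γ ≤ ω / (34 * N) := γ1.trans ((min_le_left _ _).trans (min_le_right _ _))
  have g3 : γ ≤ ω₂ * ω / 136 := γ1.trans ((min_le_right _ _).trans (min_le_left _ _))
  have g4 : γ ≤ ω₂ / 10 := γ1.trans ((min_le_right _ _).trans (min_le_right _ _))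
  rw [le_div_iff₀ (by positivity)] at g1 g2
  obtain ⟨g5, g6⟩ := trl_ga hω' γ0 N8 g2
  obtain ⟨⟨s4, sD, -⟩, b1, b2, -, b4⟩ := hr₁ s hs
  have s1 : 1 ≤ s := by linarith
  have s0 : 0 < s := by linarith
  by_contra hcon
  rw [not_le] at hcon
  obtain ⟨β, hβ, he, hi⟩ := (NC.exit (fun u => (Γ u).im) 0 τ (-1 / 64) τ0
    (Complex.continuous_im.comp_continuousOn hcont) (by linarith) hcon.le).2
  have hc' : ContinuousOn Γ (Icc 0 β) := hcont.mono (Icc_subset_Icc_right hβ.2)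
  have hD' : Dsc g Γ 0 β := hDs.mono le_rfl hβ.2
  obtain ⟨t, t1, t2, t3⟩ := hL g θ γ (Γ β) hθ hAP hAct γ0 (by linarith) he
  have m0 : 0 < s ^ (-ω₁) := Real.rpow_pos_of_pos s0 _
  have m1 : s ^ (-ω₁) ≤ 1 := Real.rpow_le_one_of_one_le_of_nonpos s1 (by linarith)
  have q0 : 0 ≤ 1 + ‖Γ β‖ := by positivity
  rcases le_total (1 + ‖Γ β‖) (s ^ N) with hρ | hρ
  · have u1 : t ≤ s := trl_half s0 b4 (core_pw q0 s1 hρ (by linarith : 0 ≤ 8 * γ) g6)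
      (Real.rpow_nonneg q0 _) t2
    rcases trl_near hβ.1 t1 u1 he hc' hi hD' hg0 h01 hLP with ⟨α, P⟩ | ⟨α', β', Λ, P⟩
    · exact trl_fin hC γ0 (by linarith) q0 s1 hρ b1 (t3 _ _ _ _ m0 m1 (Or.inl P))
    · exact core_fin hω hω' hC hD γ0 (by linarith) q0 s1 hρ b2
        (t3 _ _ _ _ (by positivity) (by rw [div_le_one s0]; exact sD) (Or.inr P))
  · obtain ⟨σ, σ0, hσ⟩ := core_rt q0
    have a1 : s ^ (2 * n) ≤ σ := by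
      refine le_of_pow_le_pow_left₀ (n := 4) (by norm_num) σ0 ?_
      rw [hσ, ← pow_mul]
      have : 2 * n * 4 = N := by omega
      rwa [this]
    have a2 : s ≤ σ := (le_self_pow₀ s1 (by omega)).trans a1
    have a3 : s ^ n ≤ σ := (pow_le_pow_right₀ s1 (by omega)).trans a1
    obtain ⟨⟨σ4, -, σρ⟩, -, -, c3, c4⟩ := hr₁ σ (le_trans hs a2)
    have σ1 : 1 ≤ σ := by linarith
    have σp : 0 < σ := by linarith
    have u1 : t ≤ σ := trl_half σp c4 (core_pw (n := 4) q0 σ1 hσ.ge (by linarith : 0 ≤ 8 * γ)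
      (by push_cast; linarith)) (Real.rpow_nonneg q0 _) t2
    obtain ⟨α, P⟩ := trl_far hβ.1 (by linarith) σ4 u1 hσ
      (by linarith [norm_sub_norm_le (Γ 0) y₁]) hc' hi hD' (hg0.trans m1)
      (fun α β' => hR σ σρ g γ α β' Γ (trl_dg hθ) hAP γ0 g4)
    exact trl_fin (n := 4) hC γ0 (by push_cast; linarith) q0 σ1 hσ.ge c3
      (t3 _ _ _ _ (Real.rpow_pos_of_pos σp _)
        (Real.rpow_le_one_of_one_le_of_nonpos σ1 (by linarith)) (Or.inl P))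

end Vale.Agent.P097F.R
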