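import Vale.Agent.P097F.R.Hg
import Vale.Agent.P097F.R.Lw
import Vale.Agent.P097F.R.Sm
import Vale.Agent.P097F.R.Pc
import Vale.Agent.P097F.R.R0
import Vale.Agent.P097F.R.Leaf
import Vale.Agent.P097F.R.Trl
import Vale.Agent.P097F.R.Asm

/-!
# P097F.R: descent lines that start near the model leaf stay away from the top, closed
-/

set_option linter.all false

namespace Vale.Agent.P097F.R

theorem nosh : Spec_NOSH := nosh_of (sm (ht hg)) ex leaf (trl (lw hg (ht hg)) (r0 hg pc))

end Vale.Agent.P097F.R
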