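import Vale.Agent.P097F.NC.Defs
import Vale.Agent.P097F.T.Defs

/-!
# P097F.R: descent lines that start near the model leaf stay away from the top (statements)
-/

set_option linter.all false

noncomputable section

namespace Vale.Agent.P097F.R

open Filter Topology Set Metric
open Vale.Agent.P097F.NC

/-- a path of size `t / 2` near `q` on which `f` is small -/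
structure Pc (f : ℂ → ℂ) (q : ℂ) (t m α β : ℝ) (Γ : ℝ → ℂ) : Prop where
  le : α ≤ β
  cont : ContinuousOn Γ (Icc α β)
  len : t / 2 ≤ ‖Γ β - Γ α‖
  ins : ∀ s ∈ Icc α β, (Γ s).im ≤ -1 / 64 ∧ ‖Γ s - q‖ ≤ 2 * t ∧ ‖f (Γ s)‖ ≤ m

/-- the exponent of Hall -/
def om (a : ℝ) : ℝ := 1 / (1920 * (a + 7) ^ 2)

/-- paths from `y₁` on which the angle is almost constant -/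
def LP (θ : ℂ → ℂ) (y₁ : ℂ) (s D : ℝ) : Prop := ∀ t : ℝ, 1 / 40 ≤ t → t ≤ s → -y₁.im ≤ 2 * t →
  ∃ (α β : ℝ) (Λ : ℝ → ℂ), α ≤ β ∧ ContinuousOn Λ (Icc α β) ∧ Λ α = y₁ ∧ ‖Λ β - y₁‖ = t / 2 ∧
    ∀ u ∈ Icc α β, (Λ u).im ≤ -1 / 32 ∧ ‖Λ u - y₁‖ ≤ t / 2 ∧ ‖θ (Λ u) - θ y₁‖ ≤ D / s

/-- the variation of `g` on the path is bounded by the drop of its modulus -/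
def Dsc (g : ℂ → ℂ) (Γ : ℝ → ℂ) (α β : ℝ) : Prop := ∀ s s' : ℝ, α ≤ s → s ≤ s' → s' ≤ β →
  ‖g (Γ s') - g (Γ s)‖ ≤ 2 * (‖g (Γ s)‖ - ‖g (Γ s')‖)

/-- THE BLOCK -/
def Spec_NOSH : Prop := ∀ (K : ℕ) (a c : ℝ), 0 ≤ a → 0 < c → ∃ γ₀ : ℝ, 0 < γ₀ ∧
  ∀ γ M : ℝ, 0 ≤ γ → γ ≤ γ₀ → 1 ≤ M → ∃ W₁ : ℝ, ∀ W ≥ W₁, ∀ (g Y : ℂ → ℂ) (p T : ℝ),
    Lf g W p Y → AP g γ M → Act g a c → 0 ≤ p → p ≤ T → T ≤ W ^ K → Anc Y T →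
    ∀ x : ℂ, |x.re| ≤ W ^ K → -W ^ K ≤ x.im → x.im < -p → ∀ y κ : ℂ, ‖y - Y x‖ ≤ 1 / 1000 →
      κ.re = 1 → |κ.im| ≤ 1 → P097F.T.Sh g κ (1 / 64) y

/-! ## The rows -/

/-- the lemma of Hall -/
def S_HG : Prop := ∀ (f : ℂ → ℂ) (q z₀ : ℂ) (a t m B α β : ℝ) (Γ : ℝ → ℂ),
  DifferentiableOn ℂ f {y | y.im < 0} → 0 ≤ a → q.im = -1 / 64 → t = -z₀.im → 1 / 40 ≤ t →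
  |z₀.re - q.re| ≤ a * t → 0 < m → m ≤ 1 → 1 ≤ B →
  (∀ z : ℂ, z.im ≤ -1 / 128 → ‖z - q‖ ≤ 1000 * (a + 2) ^ 2 * t ^ 2 → ‖f z‖ ≤ B) →
  Pc f q t m α β Γ → ∀ z ∈ closedBall z₀ (t / 8), ‖f z‖ ≤ m ^ om a * B

/-- the lemma of Hall for the angle -/
def S_HT : Prop := ∀ (g θ : ℂ → ℂ) (q z₀ : ℂ) (a t m G α β : ℝ) (Γ : ℝ → ℂ),
  (∀ y : ℂ, y.im < 0 → HasDerivAt θ (g y) y) → 0 ≤ a → q.im = -1 / 64 → t = -z₀.im →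
  1 / 40 ≤ t → |z₀.re - q.re| ≤ a * t → 0 < m → m ≤ 1 → 1 ≤ G →
  (∀ z : ℂ, z.im ≤ -1 / 128 → ‖z - q‖ ≤ 1000 * (a + 2) ^ 2 * t ^ 2 → ‖g z‖ ≤ G) →
  Pc (fun z => θ z - θ (Γ α)) q t m α β Γ →
  ‖g z₀‖ * t ≤ 8 * m ^ om a * (2000 * (a + 2) ^ 2 * t ^ 2 * G)

/-- no calm path near the top -/
def S_LW : Prop := ∀ a c : ℝ, 0 ≤ a → 0 < c → ∃ ω : ℝ, 0 < ω ∧ ω ≤ 1 ∧ ∀ M : ℝ, 1 ≤ M →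
  ∃ C : ℝ, 1 ≤ C ∧ ∀ (g θ : ℂ → ℂ) (γ : ℝ) (q : ℂ), (∀ y : ℂ, y.im < 0 → HasDerivAt θ (g y) y) →
    AP g γ M → Act g a c → 0 ≤ γ → γ ≤ 1 / 16 → q.im = -1 / 64 →
    ∃ t : ℝ, 1 / 16 ≤ t ∧ t ≤ C * (1 + ‖q‖) ^ (8 * γ) ∧ ∀ (m α β : ℝ) (Γ : ℝ → ℂ),
      0 < m → m ≤ 1 → (Pc g q t m α β Γ ∨ Pc (fun z => θ z - θ (Γ α)) q t m α β Γ) →
        1 ≤ C * m ^ ω * (1 + ‖q‖) ^ (17 * γ)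

/-- the curve is calm near the leaf -/
def S_SM : Prop := ∃ ω : ℝ, 0 < ω ∧ ω ≤ 1 ∧ ∀ n : ℕ, ∃ γ₀ : ℝ, 0 < γ₀ ∧ ∀ M D : ℝ, 1 ≤ M → 1 ≤ D →
  ∃ r₁ : ℝ, ∀ s ≥ r₁, ∀ (g θ : ℂ → ℂ) (γ : ℝ) (y y₁ : ℂ),
    (∀ y : ℂ, y.im < 0 → HasDerivAt θ (g y) y) → AP g γ M → 0 ≤ γ → γ ≤ γ₀ → 1 / 40 ≤ -y.im →
    ‖y - y₁‖ ≤ 1 / 1000 → 1 + ‖y₁‖ ≤ s ^ n → LP θ y₁ s D → ‖g y‖ ≤ s ^ (-ω)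

/-- a piece with a small drop -/
def S_PC : Prop := ∀ (Γ : ℝ → ℂ) (φ : ℝ → ℝ) (h β : ℝ) (n : ℕ) (α : ℝ), α ≤ β →
  ContinuousOn Γ (Icc α β) → AntitoneOn φ (Icc α β) → 0 < h → 1 ≤ n → n * h ≤ ‖Γ β - Γ α‖ →
  ∃ s s' : ℝ, α ≤ s ∧ s ≤ s' ∧ s' ≤ β ∧ ‖Γ s' - Γ s‖ = h ∧ (∀ u ∈ Icc s s', ‖Γ u - Γ s‖ ≤ h) ∧
    (φ s - φ s') * n ≤ φ α - φ β

/-- a long descent line has descended -/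
def S_R0 : Prop := ∃ ω : ℝ, 0 < ω ∧ ω ≤ 1 ∧ ∀ M : ℝ, 1 ≤ M → ∃ ρ₁ : ℝ, ∀ ρ ≥ ρ₁,
  ∀ (g : ℂ → ℂ) (γ α β : ℝ) (Γ : ℝ → ℂ), DifferentiableOn ℂ g {y | y.im < 0} → AP g γ M →
    0 ≤ γ → γ ≤ ω / 10 → α ≤ β → ContinuousOn Γ (Icc α β) →
    (∀ s ∈ Icc α β, (Γ s).im ≤ -1 / 64 ∧ ‖Γ s‖ ≤ 2 * ρ ^ 4) → Dsc g Γ α β → ‖g (Γ α)‖ ≤ 1 →
    ρ ^ 2 / 2 ≤ ‖Γ β - Γ α‖ → ‖g (Γ β)‖ ≤ ρ ^ (-ω)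

/-- spirals -/
def S_EXP : Prop := ∀ (g : ℂ → ℂ) (Ω : Set ℂ) (κ y : ℂ) (p : ℝ → ℂ) (τ : ℝ), κ.re = 1 →
  |κ.im| ≤ 1 → P097F.T.Tr g Ω κ y p τ → Dsc g p 0 τ

/-- the image of a vertical -/
def S_LEAF : Prop := ∀ K : ℕ, 1 ≤ K → ∃ (n : ℕ) (D : ℝ), 1 ≤ n ∧ 1 ≤ D ∧ ∀ M : ℝ, 1 ≤ M →
  ∃ r₁ : ℝ, ∀ r ≥ r₁, ∀ (g θ Y : ℂ → ℂ) (γ p T ξ te : ℝ),
    (∀ y : ℂ, y.im < 0 → HasDerivAt θ (g y) y) → Lf g (r ^ 4) p Y → AP g γ M → 0 ≤ γ → γ ≤ 1 →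
    0 ≤ p → r ^ 4 ≤ T → T ≤ (r ^ 4) ^ K → |ξ| ≤ (r ^ 4) ^ K →
    ‖Y (vt ξ T) - vt ξ T‖ ≤ T / 2 → ‖dl g Y (r ^ 4) (vt ξ T)‖ ≤ 1 →
    (∀ t : ℝ, 0 < t → t ≤ T - p → (Y (vt ξ (p + t))).im ≤ -1 / 32) → 0 < te → te ≤ T - p →
    ∃ s : ℝ, r ≤ s ∧ 1 + ‖Y (vt ξ (p + te))‖ ≤ s ^ n ∧ LP θ (Y (vt ξ (p + te))) s D

/-- the descent line -/
def S_TRL : Prop := ∀ (a c ω₁ : ℝ) (n : ℕ), 0 ≤ a → 0 < c → 0 < ω₁ → 1 ≤ n →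
  ∃ γ₀ : ℝ, 0 < γ₀ ∧ ∀ M D : ℝ, 1 ≤ M → 1 ≤ D → ∃ r₁ : ℝ, ∀ s ≥ r₁,
    ∀ (g θ : ℂ → ℂ) (γ τ : ℝ) (y₁ : ℂ) (Γ : ℝ → ℂ),
    (∀ y : ℂ, y.im < 0 → HasDerivAt θ (g y) y) → AP g γ M → Act g a c → 0 ≤ γ → γ ≤ γ₀ →
    0 ≤ τ → ContinuousOn Γ (Icc 0 τ) → 1 / 40 ≤ -(Γ 0).im → ‖Γ 0 - y₁‖ ≤ 1 / 1000 →
    1 + ‖y₁‖ ≤ s ^ n → LP θ y₁ s D → ‖g (Γ 0)‖ ≤ s ^ (-ω₁) → Dsc g Γ 0 τ → (Γ τ).im ≤ -1 / 64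

theorem om_pos {a : ℝ} (ha : 0 ≤ a) : 0 < om a := by unfold om; positivity

theorem om_le {a : ℝ} (ha : 0 ≤ a) : om a ≤ 1 := by
  unfold om
  rw [div_le_one (by positivity)]
  nlinarith

theorem Dsc.anti {g : ℂ → ℂ} {Γ : ℝ → ℂ} {α β : ℝ} (h : Dsc g Γ α β) :
    AntitoneOn (fun s => ‖g (Γ s)‖) (Icc α β) := fun s hs s' hs' k => by
  have := (norm_nonneg _).trans (h s s' hs.1 k hs'.2)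
  show ‖g (Γ s')‖ ≤ ‖g (Γ s)‖
  linarith

theorem Dsc.mono {g : ℂ → ℂ} {Γ : ℝ → ℂ} {α β α' β' : ℝ} (h : Dsc g Γ α β) (k : α ≤ α')
    (k' : β' ≤ β) : Dsc g Γ α' β' := fun s s' a b c => h s s' (k.trans a) b (c.trans k')

end Vale.Agent.P097F.R
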