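import Vale.Agent.P097F.R.Defs
import Vale.Agent.P097U.Hall

/-!
# P097F.R: the lemma of Hall near a path
-/

set_option linter.all false

noncomputable section

namespace Vale.Agent.P097F.R

open Filter Topology Set Metric MeasureTheory

namespace Hg

/-- the centre of the disc -/
def cen (q : ℂ) (R : ℝ) : ℂ := ⟨q.re, -(1 / 128 + R)⟩

lemma nsq (q z : ℂ) (R : ℝ) :
    ‖z - cen q R‖ ^ 2 = (z.re - q.re) ^ 2 + (z.im + (1 / 128 + R)) ^ 2 := by
  rw [Complex.sq_norm, Complex.normSq_apply]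
  simp only [cen, Complex.sub_re, Complex.sub_im]
  ring

lemma nsq' (q z : ℂ) : ‖z - q‖ ^ 2 = (z.re - q.re) ^ 2 + (z.im - q.im) ^ 2 := by
  rw [Complex.sq_norm, Complex.normSq_apply]
  simp only [Complex.sub_re, Complex.sub_im]
  ring

lemma im_le {q z : ℂ} {R : ℝ} (hz : z ∈ closedBall (cen q R) R) : z.im ≤ -1 / 128 := by
  have h1 : ‖z - cen q R‖ ≤ R := mem_closedBall_iff_norm.1 hz
  have h2 := (le_abs_self _).trans ((Complex.abs_im_le_norm (z - cen q R)).trans h1)
  simp only [cen, Complex.sub_im] at h2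
  linarith

lemma mem {q z : ℂ} {R t : ℝ} (hy : q.im = -1 / 64) (ht : 1 / 40 ≤ t) (hR : 1600 * t ^ 2 ≤ R)
    (h1 : z.im ≤ -1 / 64) (h2 : ‖z - q‖ ≤ 2 * t) : z ∈ ball (cen q R) R := by
  have R1 : 1 ≤ R := by nlinarith
  rw [mem_ball_iff_norm]
  refine lt_of_pow_lt_pow_left₀ 2 (by linarith) ?_
  have h3 := pow_le_pow_left₀ (norm_nonneg _) h2 2
  rw [nsq', hy] at h3
  rw [nsq]
  have h5 : R / 128 ≤ R * (-z.im - 1 / 128) := by nlinarith
  have h6 : -z.im - 1 / 128 ≤ R * (-z.im - 1 / 128) := by nlinarith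
  nlinarith

lemma ht_bd {q z : ℂ} {R t a : ℝ} (ha : 0 ≤ a) (ht : 1 / 40 ≤ t)
    (hR : R = 400 * (a + 2) ^ 2 * t ^ 2) (h1 : 7 * t / 8 ≤ -z.im) (h2 : -z.im ≤ 9 * t / 8)
    (h3 : |z.re - q.re| ≤ (a + 1 / 8) * t) :
    t / 4 ≤ P097U.ht (cen q R) R z ∧ P097U.ht (cen q R) R z ≤ 5 * t / 4 := by
  have t0 : 0 < t := by linarith
  have R0 : 0 < R := by rw [hR]; positivity
  have e : P097U.ht (cen q R) R z =
      (-z.im - 1 / 128) - ((-z.im - 1 / 128) ^ 2 + (z.re - q.re) ^ 2) / (2 * R) := by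
    unfold P097U.ht
    rw [nsq]
    field_simp
    ring
  have e1 : (z.re - q.re) ^ 2 ≤ ((a + 1 / 8) * t) ^ 2 := by
    rw [← sq_abs]
    exact pow_le_pow_left₀ (abs_nonneg _) h3 2
  have e2 : (-z.im - 1 / 128) ^ 2 ≤ (9 * t / 8) ^ 2 :=
    pow_le_pow_left₀ (by linarith) (by linarith) 2
  have e3 : ((-z.im - 1 / 128) ^ 2 + (z.re - q.re) ^ 2) / (2 * R) ≤ 1 / 800 := by
    rw [div_le_iff₀ (by positivity), hR]
    nlinarith [mul_nonneg ha (sq_nonneg t), sq_nonneg t]
  have e4 : 0 ≤ ((-z.im - 1 / 128) ^ 2 + (z.re - q.re) ^ 2) / (2 * R) := by positivity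
  rw [e]
  constructor <;> linarith

end Hg

open Hg in
theorem hg : S_HG := by
  intro f q z₀ a t m B α β Γ hf a0 hy ht t1 hx m0 m1 B1 hB hP z hz
  have t0 : 0 < t := by linarith
  obtain ⟨R, hR⟩ : ∃ R, R = 400 * (a + 2) ^ 2 * t ^ 2 := ⟨_, rfl⟩
  have R1 : 1600 * t ^ 2 ≤ R := by
    rw [hR]
    nlinarith [mul_nonneg (mul_nonneg a0 (show 0 ≤ a + 4 by linarith)) (sq_nonneg t)]
  have R0 : 0 < R := lt_of_lt_of_le (by positivity) R1
  set c := cen q R with hc
  have yin : q ∈ closedBall c R :=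
    ball_subset_closedBall (mem hy t1 R1 hy.le (by simp [t0.le]))
  have hb : ∀ w ∈ ball c R, ‖f w‖ ≤ B := fun w hw => by
    refine hB w (im_le (ball_subset_closedBall hw)) ?_
    have := dist_triangle_right w q c
    rw [dist_eq_norm] at this
    linarith [mem_ball.1 hw, mem_closedBall.1 yin]
  have dc : DiffContOnCl ℂ f (ball c R) := by
    refine DifferentiableOn.diffContOnCl ?_
    rw [closure_ball c R0.ne']
    exact hf.mono fun w hw => by
      have := im_le hw
      show w.im < 0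
      linarith
  have hE : Γ '' Icc α β ⊆ ball c R := by
    rintro _ ⟨s, hs, rfl⟩
    exact mem hy t1 R1 (hP.ins s hs).1 (hP.ins s hs).2.1
  have hl : ENNReal.ofReal (t / 2) ≤ volume ((fun z : ℂ => ‖z - Γ α‖) '' (Γ '' Icc α β)) := by
    have := intermediate_value_Icc hP.le (f := fun s => ‖Γ s - Γ α‖)
      (hP.cont.sub continuousOn_const).norm
    simp only [sub_self, norm_zero] at this
    rw [image_image]
    refine le_trans ?_ (measure_mono this)
    rw [Real.volume_Icc, sub_zero]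
    exact ENNReal.ofReal_le_ofReal hP.len
  have ω0 := om_pos a0
  have h0 : ‖z - z₀‖ ≤ t / 8 := mem_closedBall_iff_norm.1 hz
  have h1 := (Complex.abs_im_le_norm (z - z₀)).trans h0
  have h2 := (Complex.abs_re_le_norm (z - z₀)).trans h0
  rw [Complex.sub_im, abs_le] at h1
  rw [Complex.sub_re] at h2
  have h3 : |z.re - q.re| ≤ (a + 1 / 8) * t := by
    have := abs_sub_le z.re z₀.re q.re
    linarith
  obtain ⟨k1, k2⟩ := ht_bd a0 t1 hR (z := z) (q := q) (by linarith) (by linarith) h3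
  rw [← hc] at k1 k2
  have zin : z ∈ ball c R := by
    rw [mem_ball_iff_norm]
    refine lt_of_pow_lt_pow_left₀ 2 R0.le ?_
    have : 0 < P097U.ht c R z := by linarith
    unfold P097U.ht at this
    linarith [(div_pos_iff_of_pos_right (show 0 < 2 * R by positivity)).1 this]
  refine (P097U.hall_disc (D := (a + 4) * t) (ω := om a) dc hb m0 (m1.trans B1)
    (fun z : ℂ => ‖z - Γ α‖) (fun z w => ?_) hE ?_ hl zin ?_ (om_le a0) ?_).trans ?_
  · simpa using abs_norm_sub_norm_le (z - Γ α) (w - Γ α)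
  · rintro _ ⟨s, hs, rfl⟩
    exact (hP.ins s hs).2.2
  · rintro _ ⟨s, hs, rfl⟩
    have e1 := (hP.ins s hs).2.1
    have e2 := Complex.norm_le_abs_re_add_abs_im (z - q)
    have e3 : |(z - q).im| ≤ 9 * t / 8 := by
      rw [Complex.sub_im, hy, abs_le]
      constructor <;> linarith
    have e4 := norm_sub_le (z - q) (Γ s - q)
    rw [sub_sub_sub_cancel_right] at e4
    rw [Complex.sub_re] at e2
    linarith
  · have e1 : (a + 4) * t + 2 * P097U.ht c R z ≤ (a + 7) * t := by linarith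
    have e2 : 0 < (a + 4) * t + 2 * P097U.ht c R z := by nlinarith
    have e3 : 0 ≤ P097U.ht c R z := by linarith
    calc om a = t / 2 * (t / 4 / (240 * ((a + 7) * t) ^ 2)) := by
          unfold om
          field_simp
          ring
      _ ≤ _ := by gcongr
  · refine mul_le_mul_of_nonneg_left ?_ (by positivity)
    simpa using Real.rpow_le_rpow_of_exponent_le B1 (show 1 - om a ≤ 1 by linarith)

end Vale.Agent.P097F.R
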